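import Vale.Agent.P281.H455.KD.Loc

/-!
# P281: from `u ∘ j = l log |h|²` to `dh = 0` along a vector killed by `∂u`
-/

open scoped Manifold ContDiff Topology ComplexOrder
open Set Filter Vale.Agent.P281 Vale.Agent.P272.K Vale.Agent.P272.K.AMP Vale.Agent.P299
open Vale.Agent.P299.H882 (xi)

set_option linter.all false

noncomputable section

namespace Vale.Agent.P281.H455.KG

open Vale.Agent.P299.H223

variable {n : ℕ}

/-- `∂ log |h|² = ∂h / h` -/
lemma dz_log_normsq {h : Cm n → ℂ} {z : Cm n} (hh : ContDiffAt ℂ ω h z) (h0 : h z ≠ 0)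
    (k : Fin n) :
    dz k (fun y => ((Real.log (‖h y‖ ^ 2) : ℝ) : ℂ)) z = (h z)⁻¹ * dz k h z := by
  set c : Cm n → Fin 1 → ℂ := fun y _ => h y with hcdef
  have hc : ContDiffAt ℂ ω c z := contDiffAt_pi.2 fun _ => hh
  have hnc : ∀ y, nsq (c y) = ‖h y‖ ^ 2 := fun y => by simp [nsq, hcdef]
  have hN2 : ContDiffAt ℝ 2 (fun y => nsq (c y)) z :=
    (smooth_nsq hc).of_le (by exact WithTop.coe_le_coe.2 le_top)
  have hNd : DifferentiableAt ℝ (fun y => nsq (c y)) z := hN2.differentiableAt (by norm_num)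
  have hnp : 0 < nsq (c z) := by rw [hnc]; positivity
  have h1 : (fun y => ((Real.log (‖h y‖ ^ 2) : ℝ) : ℂ)) =
      fun y => ((Real.log (nsq (c y)) : ℝ) : ℂ) := by
    funext y
    rw [hnc]
  rw [h1, C2.dz_comp_real (ψ := Real.log) k (Real.hasDerivAt_log hnp.ne') hNd, dz_nsq hc]
  have hgg : ((nsq (c z) : ℝ) : ℂ) = h z * (starRingEnd ℂ) (h z) := by
    rw [Complex.mul_conj, Complex.normSq_eq_norm_sq, hnc]
  have hcg : (starRingEnd ℂ) (h z) ≠ 0 := by simpa using h0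
  rw [Complex.ofReal_inv, hgg]
  simp only [Finset.univ_unique, Finset.sum_singleton, hcdef, cj]
  have e0 : dz k (fun y => h y) z = dz k h z := rfl
  rw [e0]
  field_simp

/-- the differential of a holomorphic function -/
lemma fderiv_holo_sum {h : Cm n → ℂ} {z : Cm n} (hh : DifferentiableAt ℂ h z) (w : Cm n) :
    fderiv ℂ h z w = ∑ k, dz k h z * w k := by
  rw [← fderivR_of_holo hh, fderiv_eq]
  refine Finset.sum_congr rfl fun k _ => ?_
  rw [dzb_of_holo hh, zero_mul, add_zero]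

/-- a vector killed by `∂u` -/
lemma fderiv_zero_of {U : Cm n → ℝ} {τ : Cm n → Cm n} {h : Cm n → ℂ} {y₀ : Cm n}
    (hU : DifferentiableAt ℝ U (τ y₀)) (hτ : DifferentiableAt ℂ τ y₀) (hh : ContDiffAt ℂ ω h y₀)
    (h0 : h y₀ ≠ 0) {l : ℕ} (hl : 0 < l)
    (hev : ∀ᶠ y in 𝓝 y₀, U (τ y) = l * Real.log (‖h y‖ ^ 2)) {w : Cm n}
    (hw : ∑ i, dz i (fun y => ((U y : ℝ) : ℂ)) (τ y₀) * fderiv ℂ τ y₀ w i = 0) :
    fderiv ℂ h y₀ w = 0 := by
  have hhd : DifferentiableAt ℂ h y₀ := hh.differentiableAt (by simp)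
  have hUd : DifferentiableAt ℝ (fun y => ((U y : ℝ) : ℂ)) (τ y₀) := C2.differentiableAt_ofReal hU
  have hNd : DifferentiableAt ℝ (fun y => ‖h y‖ ^ 2) y₀ := by
    have h1 : DifferentiableAt ℝ h y₀ := hhd.restrictScalars ℝ
    exact h1.norm_sq ℝ
  have hn0 : ‖h y₀‖ ^ 2 ≠ 0 := by positivity
  have hLd : DifferentiableAt ℝ (fun y => ((Real.log (‖h y‖ ^ 2) : ℝ) : ℂ)) y₀ :=
    C2.differentiableAt_ofReal (hNd.log hn0)
  have h1 : ∀ k, ∑ i, dz i (fun y => ((U y : ℝ) : ℂ)) (τ y₀) * jmat τ y₀ i k =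
      (l : ℂ) * ((h y₀)⁻¹ * dz k h y₀) := by
    intro k
    rw [← dz_comp_holo hUd hτ, ← dz_log_normsq hh h0 k, ← dz_const_mul (l : ℂ) hLd]
    refine dz_congr ?_
    filter_upwards [hev] with y hy
    rw [hy]
    push_cast
    ring
  have h2 : ∑ i, dz i (fun y => ((U y : ℝ) : ℂ)) (τ y₀) * fderiv ℂ τ y₀ w i =
      ((l : ℂ) * (h y₀)⁻¹) * fderiv ℂ h y₀ w := by
    rw [fderiv_holo_sum hhd, Finset.mul_sum]
    simp_rw [jmat_mulVec hτ, Finset.mul_sum]
    rw [Finset.sum_comm]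
    refine Finset.sum_congr rfl fun k _ => ?_
    calc ∑ i, dz i (fun y => ((U y : ℝ) : ℂ)) (τ y₀) * (jmat τ y₀ i k * w k) =
        (∑ i, dz i (fun y => ((U y : ℝ) : ℂ)) (τ y₀) * jmat τ y₀ i k) * w k := by
          rw [Finset.sum_mul]
          exact Finset.sum_congr rfl fun i _ => by ring
      _ = (l : ℂ) * (h y₀)⁻¹ * (dz k h y₀ * w k) := by rw [h1 k]; ring
  rw [h2] at hw
  rcases mul_eq_zero.1 hw with h3 | h3
  · exact absurd h3 (mul_ne_zero (by exact_mod_cast hl.ne') (inv_ne_zero h0))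
  · exact h3

end Vale.Agent.P281.H455.KG
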